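import Vale.Agent.P224.R2.H758.NU

/-!
The near certificate in dimension 2: rows.
-/

namespace Vale.Agent.P224.R2.H758.NA

open Vale.Agent.P224.UE Vale.Agent.P224.POS Vale.Agent.P224.PO Vale.Agent.P224.R2.H758

noncomputable section

/-- the rows: integer coefficient and term (family, e, i, j, d, k, l) -/
def rows : List (Int × HTerm) := [
  (-1645669776, ⟨0, 0, 0, 0, 0, 0, 0⟩),
  (5485565920, ⟨0, 2, 0, 0, 0, 0, 0⟩),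
  (-6582679104, ⟨0, 4, 0, 0, 0, 0, 0⟩),
  (4388452736, ⟨0, 6, 0, 0, 0, 0, 0⟩),
  (-47672, ⟨0, 0, 0, 0, 0, 1, 0⟩),
  (42230919680, ⟨0, 2, 0, 0, 0, 1, 0⟩),
  (-141770634668, ⟨0, 4, 0, 0, 0, 1, 0⟩),
  (246507869776, ⟨0, 6, 0, 0, 0, 1, 0⟩),
  (-83356, ⟨0, 0, 1, 0, 1, 0, 0⟩),
  (-50450192960, ⟨0, 2, 1, 0, 1, 0, 0⟩),
  (145842582064, ⟨0, 4, 1, 0, 1, 0, 0⟩),
  (-68733327360, ⟨0, 6, 1, 0, 1, 0, 0⟩),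
  (-39760319076, ⟨0, 0, 1, 1, 0, 0, 0⟩),
  (96031278396, ⟨0, 2, 1, 1, 0, 0, 0⟩),
  (-249584134924, ⟨0, 4, 1, 1, 0, 0, 0⟩),
  (68912505600, ⟨0, 6, 1, 1, 0, 0, 0⟩),
  (3839896144, ⟨0, 0, 2, 0, 0, 0, 0⟩),
  (-7679792288, ⟨0, 2, 2, 0, 0, 0, 0⟩),
  (36443872924, ⟨0, 0, 2, 0, 0, 1, 0⟩),
  (-63380082336, ⟨0, 2, 2, 0, 0, 1, 0⟩),
  (23901925440, ⟨0, 4, 2, 0, 0, 1, 0⟩),
  (-3804796800, ⟨0, 6, 2, 0, 0, 1, 0⟩),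
  (26461017300, ⟨0, 0, 3, 0, 1, 0, 0⟩),
  (-55423286400, ⟨0, 2, 3, 0, 1, 0, 0⟩),
  (36906528960, ⟨0, 4, 3, 0, 1, 0, 0⟩),
  (-31567765200, ⟨0, 0, 3, 1, 0, 0, 0⟩),
  (55503422880, ⟨0, 2, 3, 1, 0, 0, 0⟩),
  (-29677415040, ⟨0, 4, 3, 1, 0, 0, 0⟩),
  (856316160, ⟨0, 0, 4, 0, 0, 1, 0⟩),
  (-13876, ⟨1, 0, 0, 0, 1, 0, 0⟩),
  (-97349918744, ⟨1, 2, 0, 0, 1, 0, 0⟩),
  (193100656796, ⟨1, 4, 0, 0, 1, 0, 0⟩),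
  (-215375251280, ⟨1, 6, 0, 0, 1, 0, 0⟩),
  (104416, ⟨1, 0, 0, 1, 0, 0, 0⟩),
  (31118492944, ⟨1, 2, 0, 1, 0, 0, 0⟩),
  (-37358214036, ⟨1, 4, 0, 1, 0, 0, 0⟩),
  (-170553775512, ⟨1, 6, 0, 1, 0, 0, 0⟩),
  (-1645669776, ⟨1, 0, 1, 0, 0, 0, 0⟩),
  (10971131840, ⟨1, 2, 1, 0, 0, 0, 0⟩),
  (-10971131840, ⟨1, 4, 1, 0, 0, 0, 0⟩),
  (-15023689776, ⟨1, 0, 1, 0, 0, 1, 0⟩),
  (56293329088, ⟨1, 2, 1, 0, 0, 1, 0⟩),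
  (-44425235280, ⟨1, 4, 1, 0, 0, 1, 0⟩),
  (-26126496064, ⟨1, 0, 2, 0, 1, 0, 0⟩),
  (119791727664, ⟨1, 2, 2, 0, 1, 0, 0⟩),
  (-169291461120, ⟨1, 4, 2, 0, 1, 0, 0⟩),
  (77617854720, ⟨1, 6, 2, 0, 1, 0, 0⟩),
  (27422582388, ⟨1, 0, 2, 1, 0, 0, 0⟩),
  (-105332231424, ⟨1, 2, 2, 1, 0, 0, 0⟩),
  (151794567360, ⟨1, 4, 2, 1, 0, 0, 0⟩),
  (-77617854720, ⟨1, 6, 2, 1, 0, 0, 0⟩),
  (-548556592, ⟨1, 0, 3, 0, 0, 0, 0⟩),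
  (-7254568740, ⟨1, 0, 3, 0, 0, 1, 0⟩),
  (6931307520, ⟨1, 2, 3, 0, 0, 1, 0⟩),
  (940896000, ⟨1, 0, 4, 0, 1, 0, 0⟩),
  (40389120, ⟨1, 0, 4, 1, 0, 0, 0⟩),
  (30047019248, ⟨2, 0, 1, 0, 0, 0, 0⟩),
  (-50553778000, ⟨2, 2, 1, 0, 0, 0, 0⟩),
  (95832180400, ⟨2, 4, 1, 0, 0, 0, 0⟩),
  (-53723193856, ⟨2, 6, 1, 0, 0, 0, 0⟩),
  (2083563120, ⟨2, 0, 3, 0, 0, 0, 0⟩),
  (-15566404512, ⟨2, 2, 3, 0, 0, 0, 0⟩),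
  (-7026315840, ⟨2, 4, 3, 0, 0, 0, 0⟩),
  (18263024640, ⟨2, 6, 3, 0, 0, 0, 0⟩),
  (-1645669776, ⟨3, 0, 0, 0, 0, 0, 0⟩),
  (5485565920, ⟨3, 2, 0, 0, 0, 0, 0⟩),
  (-5485565920, ⟨3, 4, 0, 0, 0, 0, 0⟩),
  (-81472, ⟨3, 0, 0, 0, 0, 1, 0⟩),
  (42591734800, ⟨3, 2, 0, 0, 0, 1, 0⟩),
  (85504, ⟨3, 4, 0, 0, 0, 1, 0⟩),
  (-126440, ⟨3, 0, 1, 0, 1, 0, 0⟩),
  (-27014432176, ⟨3, 2, 1, 0, 1, 0, 0⟩),
  (-23388400128, ⟨3, 4, 1, 0, 1, 0, 0⟩),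
  (25872618240, ⟨3, 6, 1, 0, 1, 0, 0⟩),
  (-486747916, ⟨3, 0, 1, 1, 0, 0, 0⟩),
  (164900, ⟨3, 2, 1, 1, 0, 0, 0⟩),
  (33870544428, ⟨3, 4, 1, 1, 0, 0, 0⟩),
  (-22176529920, ⟨3, 6, 1, 1, 0, 0, 0⟩),
  (-274278296, ⟨3, 0, 2, 0, 0, 0, 0⟩),
  (8721750228, ⟨3, 0, 2, 0, 0, 1, 0⟩),
  (-9570585408, ⟨3, 2, 2, 0, 0, 1, 0⟩),
  (-45244800, ⟨3, 4, 2, 0, 0, 1, 0⟩),
  (-3000102912, ⟨3, 0, 3, 0, 1, 0, 0⟩),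
  (3312572160, ⟨3, 2, 3, 0, 1, 0, 0⟩),
  (60140640, ⟨3, 0, 3, 1, 0, 0, 0⟩),
  (-1068997920, ⟨3, 2, 3, 1, 0, 0, 0⟩),
  (5163552000, ⟨3, 4, 3, 1, 0, 0, 0⟩),
  (360811048, ⟨4, 0, 0, 0, 0, 0, 0⟩),
  (-37872, ⟨4, 2, 0, 0, 0, 0, 0⟩),
  (-131394149740, ⟨4, 4, 0, 0, 0, 0, 0⟩),
  (228737775664, ⟨4, 6, 0, 0, 0, 0, 0⟩),
  (-20364, ⟨4, 0, 2, 0, 0, 0, 0⟩),
  (-4956, ⟨4, 2, 2, 0, 0, 0, 0⟩),
  (52692, ⟨4, 4, 2, 0, 0, 0, 0⟩),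
  (-3804796800, ⟨4, 6, 2, 0, 0, 0, 0⟩),
  (1645571040, ⟨4, 0, 4, 0, 0, 0, 0⟩),
  (31200, ⟨4, 2, 4, 0, 0, 0, 0⟩),
  (-5163552000, ⟨4, 4, 4, 0, 0, 0, 0⟩),
  (-92944, ⟨5, 0, 1, 0, 0, 0, 0⟩),
  (-17121132864, ⟨5, 2, 1, 0, 0, 0, 0⟩),
  (75228, ⟨5, 4, 1, 0, 0, 0, 0⟩),
  (-46575344216, ⟨5, 6, 1, 0, 0, 0, 0⟩),
  (-20100, ⟨5, 0, 3, 0, 0, 0, 0⟩),
  (7157936640, ⟨5, 2, 3, 0, 0, 0, 0⟩),
  (-38400, ⟨5, 4, 3, 0, 0, 0, 0⟩),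
  (-10327104000, ⟨5, 6, 3, 0, 0, 0, 0⟩)]

/-- the polynomial of the certificate (`8 D rr ^ 2` times the pointwise expression) -/
def P : PE := lhsN 2 2 721554496 5726076928 5298716672 3054174208 794820608 24485494784 50255822848 51037208576 20621164544 rows

set_option maxRecDepth 100000 in
lemma rows_ok_all : (rows.all fun x => x.2.ok 2) = true := by decide +kernel

set_option maxRecDepth 100000 in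
lemma rows_sub_all : (rows.all fun x => x.2.sub 2) = true := by decide +kernel

set_option maxRecDepth 100000 in
lemma rows_e_all : (rows.all fun x => decide (0 ≤ ((2 : ℕ) : ℤ) + x.2.e - 2)) = true := by
  decide +kernel

lemma rows_e : ∀ x ∈ rows, 0 ≤ ((2 : ℕ) : ℤ) + x.2.e - 2 := fun x hx =>
  of_decide_eq_true (List.all_eq_true.1 rows_e_all x hx)

/-- all rows are admissible -/
lemma rows_ok : ∀ cT ∈ rlH 68719476736 rows, cT.2.ok 2 = true := by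
  intro cT hcT
  unfold rlH at hcT
  obtain ⟨x, hx, rfl⟩ := List.mem_map.1 hcT
  exact List.all_eq_true.1 rows_ok_all x hx

/-- all rows have the value zero -/
lemma rows_sub : ∀ cT ∈ rlH 68719476736 rows, cT.2.sub 2 = true := by
  intro cT hcT
  unfold rlH at hcT
  obtain ⟨x, hx, rfl⟩ := List.mem_map.1 hcT
  exact List.all_eq_true.1 rows_sub_all x hx

/-- the pointwise inequality from the positivity of the polynomial -/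
theorem pos_of {d : R9} (hd : d 0 < 1) (h : 0 ≤ PE.ev (vh d) P) :
    0 ≤ Vale.Agent.P224.UE.W9 0 0 (-(721554496 / 68719476736)) 0 0 0 0 0 0 d
      + hsum 2 (rlH 68719476736 rows) d + SQ (5726076928 / 68719476736) (5298716672 / 68719476736) (3054174208 / 68719476736) (794820608 / 68719476736) (24485494784 / 68719476736) (50255822848 / 68719476736) (51037208576 / 68719476736) (20621164544 / 68719476736) d := by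
  have h1 := nonneg_of_lhsN hd 2 (K := 2) (D := 68719476736) (by norm_num) 721554496 5726076928 5298716672 3054174208 794820608 24485494784 50255822848 51037208576 20621164544 rows_e h
  push_cast at h1
  exact h1

end

end Vale.Agent.P224.R2.H758.NA
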